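import Vale.Agent.P181.H583.HWDef

set_option autoImplicit false

/-!
# P181, SZ (R1): translation invariant symmetric highest weight polynomials
-/

open MvPolynomial

namespace Vale.Agent.P181.SZ

open Vale.Agent.P181.T4 (HW)

/-- The highest weight polynomials of weight `mu` in the entries of an `m × a` matrix which are
symmetric in the columns, of degree at most `b` in each column, and translation invariant. -/
noncomputable def TI (a b m : ℕ) (mu : Fin m → ℕ) :
    Submodule ℂ (MvPolynomial (Fin m × Fin a) ℂ) where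
  carrier := {f | f ∈ HW m (Fin a) mu ∧
    (∀ e : Equiv.Perm (Fin a), rename (fun p : Fin m × Fin a => (p.1, e p.2)) f = f) ∧
    (∀ v, coeff v f ≠ 0 → ∀ j, ∑ i, v (i, j) ≤ b) ∧ ∀ i, ∑ j, pderiv (i, j) f = 0}
  zero_mem' := ⟨zero_mem _, fun _ => map_zero _, fun v hv => absurd (coeff_zero v) hv,
    fun i => Finset.sum_eq_zero fun j _ => map_zero _⟩
  add_mem' := by
    rintro f g ⟨hf1, hf2, hf3, hf4⟩ ⟨hg1, hg2, hg3, hg4⟩
    refine ⟨add_mem hf1 hg1, fun e => by rw [map_add, hf2 e, hg2 e], fun v hv j => ?_,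
      fun i => ?_⟩
    · rw [coeff_add] at hv
      by_cases h : coeff v f = 0
      · rw [h, zero_add] at hv
        exact hg3 v hv j
      · exact hf3 v h j
    · have h : ∑ j, pderiv (i, j) (f + g) = ∑ j, pderiv (i, j) f + ∑ j, pderiv (i, j) g := by
        rw [← Finset.sum_add_distrib]
        exact Finset.sum_congr rfl fun j _ => map_add _ _ _
      rw [h, hf4 i, hg4 i, add_zero]
  smul_mem' := by
    rintro c f ⟨hf1, hf2, hf3, hf4⟩
    refine ⟨Submodule.smul_mem _ c hf1, fun e => by rw [map_smul, hf2 e], fun v hv j => ?_,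
      fun i => ?_⟩
    · rw [coeff_smul, smul_eq_mul] at hv
      exact hf3 v (right_ne_zero_of_mul hv) j
    · have h : ∑ j, pderiv (i, j) (c • f) = c • ∑ j, pderiv (i, j) f := by
        rw [Finset.smul_sum]
        exact Finset.sum_congr rfl fun j _ => Derivation.map_smul _ _ _
      rw [h, hf4 i, smul_zero]

lemma mem_TI {a b m : ℕ} {mu : Fin m → ℕ} {f : MvPolynomial (Fin m × Fin a) ℂ} :
    f ∈ TI a b m mu ↔ f ∈ HW m (Fin a) mu ∧
      (∀ e : Equiv.Perm (Fin a), rename (fun p : Fin m × Fin a => (p.1, e p.2)) f = f) ∧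
      (∀ v, coeff v f ≠ 0 → ∀ j, ∑ i, v (i, j) ≤ b) ∧ ∀ i, ∑ j, pderiv (i, j) f = 0 := Iff.rfl

instance finiteDimensional_TI (a b m : ℕ) (mu : Fin m → ℕ) :
    FiniteDimensional ℂ (TI a b m mu) :=
  Submodule.finiteDimensional_of_le (S₂ := HW m (Fin a) mu) fun _ h => h.1

end Vale.Agent.P181.SZ
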