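import Vale.Agent.P181.H411.Seam4
import Vale.Agent.P181.SZ.Defs
import Vale.Agent.P181.SZR1a.TI

set_option autoImplicit false

/-!
# P181, SZ (R1a): plethysm multiplicities and translation invariant symmetric polynomials
-/

open MvPolynomial

namespace Vale.Agent.P181.SZ

open Vale.Agent.P181.T4
open Vale.Agent.P181.H280 (plethMult)

/-- Dehomogenization: the entries of the first row are set to `1`. -/
noncomputable def dh (m a : ℕ) :
    MvPolynomial (Fin (m + 1) × Fin a) ℂ →ₐ[ℂ] MvPolynomial (Fin m × Fin a) ℂ :=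
  aeval fun p => Fin.cases (motive := fun _ => MvPolynomial (Fin m × Fin a) ℂ) 1
    (fun i => X (i, p.2)) p.1

lemma dh_X_zero {m a : ℕ} (j : Fin a) : dh m a (X (0, j)) = 1 := by
  rw [dh, aeval_X]
  rfl

lemma dh_X_succ {m a : ℕ} (i : Fin m) (j : Fin a) : dh m a (X (i.succ, j)) = X (i, j) := by
  rw [dh, aeval_X]
  rfl

lemma pderiv_dh {m a : ℕ} (i : Fin m) (j : Fin a) (f : MvPolynomial (Fin (m + 1) × Fin a) ℂ) :
    pderiv (i, j) (dh m a f) = dh m a (pderiv (i.succ, j) f) := by
  classical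
  induction f using MvPolynomial.induction_on with
  | C c =>
    rw [pderiv_C, map_zero]
    have h : dh m a (C c) = C c := (dh m a).commutes c
    rw [h, pderiv_C]
  | add f g hf hg => rw [map_add, map_add, hf, hg, map_add, map_add]
  | mul_X f p hf =>
    have hX : pderiv (i, j) (dh m a (X p)) = dh m a (pderiv (i.succ, j) (X p)) := by
      obtain ⟨k, j'⟩ := p
      refine Fin.cases ?_ (fun k => ?_) k
      · rw [dh_X_zero, pderiv_one, pderiv_X_of_ne, map_zero]
        intro h
        exact absurd (congrArg Prod.fst h) (Fin.succ_ne_zero i).symm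
      · rw [dh_X_succ]
        by_cases h : (k, j') = (i, j)
        · obtain ⟨rfl, rfl⟩ := Prod.mk.inj h
          rw [pderiv_X_self, pderiv_X_self, map_one]
        · rw [pderiv_X_of_ne h, pderiv_X_of_ne, map_zero]
          intro h'
          apply h
          have h1 := Fin.succ_injective _ (congrArg Prod.fst h')
          have h2 := congrArg Prod.snd h'
          exact Prod.ext h1 h2
    rw [map_mul, pderiv_mul, pderiv_mul, map_add, map_mul, map_mul, hf, hX]

lemma rowOp_dh {m a : ℕ} (s i : Fin m) (f : MvPolynomial (Fin (m + 1) × Fin a) ℂ) :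
    rowOp s i (dh m a f) = dh m a (rowOp s.succ i.succ f) := by
  rw [rowOp_apply, rowOp_apply, map_sum]
  refine Finset.sum_congr rfl fun j _ => ?_
  rw [map_mul, dh_X_succ, pderiv_dh]

lemma sum_pderiv_dh {m a : ℕ} (i : Fin m) (f : MvPolynomial (Fin (m + 1) × Fin a) ℂ) :
    ∑ j, pderiv (i, j) (dh m a f) = dh m a (rowOp 0 i.succ f) := by
  rw [rowOp_apply, map_sum]
  refine Finset.sum_congr rfl fun j _ => ?_
  rw [map_mul, dh_X_zero, one_mul, pderiv_dh]

lemma rename_dh {m a : ℕ} (e : Equiv.Perm (Fin a)) (f : MvPolynomial (Fin (m + 1) × Fin a) ℂ) :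
    rename (fun p : Fin m × Fin a => (p.1, e p.2)) (dh m a f) =
      dh m a (rename (fun p : Fin (m + 1) × Fin a => (p.1, e p.2)) f) := by
  have h : (rename (R := ℂ) (fun p : Fin m × Fin a => (p.1, e p.2))).comp (dh m a) =
      (dh m a).comp (rename (fun p : Fin (m + 1) × Fin a => (p.1, e p.2))) := by
    apply MvPolynomial.algHom_ext
    rintro ⟨k, j⟩
    rw [AlgHom.comp_apply, AlgHom.comp_apply, rename_X]
    refine Fin.cases ?_ (fun k => ?_) k
    · rw [dh_X_zero, dh_X_zero, map_one]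
    · rw [dh_X_succ, dh_X_succ, rename_X]
  exact DFunLike.congr_fun h f

/-- The exponents of the rows below the first one. -/
noncomputable def res {m a : ℕ} (u : Fin (m + 1) × Fin a →₀ ℕ) : Fin m × Fin a →₀ ℕ :=
  Finsupp.equivFunOnFinite.symm fun p => u (p.1.succ, p.2)

lemma res_apply {m a : ℕ} (u : Fin (m + 1) × Fin a →₀ ℕ) (p : Fin m × Fin a) :
    res u p = u (p.1.succ, p.2) := rfl

lemma dh_monomial {m a : ℕ} (u : Fin (m + 1) × Fin a →₀ ℕ) (c : ℂ) :
    dh m a (monomial u c) = monomial (res u) c := by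
  rw [dh, aeval_monomial, monomial_eq, Finsupp.prod_fintype _ _ (fun _ => pow_zero _),
    Finsupp.prod_fintype _ _ (fun _ => pow_zero _), Fintype.prod_prod_type,
    Fin.prod_univ_succ, Fintype.prod_prod_type]
  have h0 : ∏ y : Fin a, (Fin.cases (motive := fun _ => MvPolynomial (Fin m × Fin a) ℂ) 1
      (fun i => X (i, y)) (0 : Fin (m + 1))) ^ u (0, y) = 1 :=
    Finset.prod_eq_one fun y _ => one_pow _
  rw [h0, one_mul]
  rfl

lemma dh_eq_sum {m a : ℕ} (f : MvPolynomial (Fin (m + 1) × Fin a) ℂ) :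
    dh m a f = ∑ u ∈ f.support, monomial (res u) (coeff u f) := by
  conv_lhs => rw [f.as_sum, map_sum]
  exact Finset.sum_congr rfl fun u _ => dh_monomial u _

lemma exists_of_coeff_dh {m a : ℕ} {f : MvPolynomial (Fin (m + 1) × Fin a) ℂ}
    {v : Fin m × Fin a →₀ ℕ} (hv : coeff v (dh m a f) ≠ 0) :
    ∃ u, coeff u f ≠ 0 ∧ res u = v := by
  classical
  rw [dh_eq_sum, coeff_sum] at hv
  obtain ⟨u, hu, h⟩ := Finset.exists_ne_zero_of_sum_ne_zero hv
  rw [coeff_monomial] at h
  refine ⟨u, mem_support_iff.1 hu, ?_⟩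
  by_contra h'
  exact h (if_neg h')

lemma res_inj {m a b : ℕ} {f : MvPolynomial (Fin (m + 1) × Fin a) ℂ}
    (hf : ColHom b f) {u v : Fin (m + 1) × Fin a →₀ ℕ} (hu : u ∈ f.support)
    (hv : v ∈ f.support) (h : res u = res v) : u = v := by
  ext ⟨k, j⟩
  have h1 := colHom_coeff hf hu j
  have h2 := colHom_coeff hf hv j
  have h3 : ∀ i : Fin m, u (i.succ, j) = v (i.succ, j) := fun i => by
    have := DFunLike.congr_fun h (i, j)
    rwa [res_apply, res_apply] at this
  refine Fin.cases ?_ (fun i => h3 i) k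
  rw [Fin.sum_univ_succ] at h1 h2
  rw [Finset.sum_congr rfl (fun i _ => h3 i)] at h1
  omega

lemma dh_inj {m a b : ℕ} {f : MvPolynomial (Fin (m + 1) × Fin a) ℂ}
    (hf : ColHom b f) (h : dh m a f = 0) : f = 0 := by
  classical
  ext u
  rw [coeff_zero]
  by_contra hu
  apply hu
  have h1 : coeff (res u) (dh m a f) = coeff u f := by
    rw [dh_eq_sum, coeff_sum, Finset.sum_eq_single u]
    · rw [coeff_monomial, if_pos rfl]
    · intro v hv hvu
      rw [coeff_monomial, if_neg]
      intro h'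
      exact hvu (res_inj hf hv (mem_support_iff.2 hu) h')
    · intro h'
      exact absurd (mem_support_iff.2 hu) h'
  rw [← h1, h, coeff_zero]

/-- The symmetric highest weight polynomials of degree `b` in each column. -/
noncomputable def SymHW (a b m : ℕ) (lam : Fin m → ℕ) :
    Submodule ℂ (MvPolynomial (Fin m × Fin a) ℂ) where
  carrier := {f | f ∈ HWcol m a b lam ∧
    ∀ e : Equiv.Perm (Fin a), rename (fun p : Fin m × Fin a => (p.1, e p.2)) f = f}
  zero_mem' := ⟨zero_mem _, fun _ => map_zero _⟩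
  add_mem' := by
    rintro f g ⟨hf1, hf2⟩ ⟨hg1, hg2⟩
    exact ⟨add_mem hf1 hg1, fun e => by rw [map_add, hf2 e, hg2 e]⟩
  smul_mem' := by
    rintro c f ⟨hf1, hf2⟩
    exact ⟨Submodule.smul_mem _ c hf1, fun e => by rw [map_smul, hf2 e]⟩

instance finiteDimensional_SymHW (a b m : ℕ) (lam : Fin m → ℕ) :
    FiniteDimensional ℂ (SymHW a b m lam) :=
  Submodule.finiteDimensional_of_le (S₂ := HW m (Fin a) lam) fun _ h => h.1.1

/-- The multiplicity of the plethysm is the dimension of the space of symmetric highest weight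
polynomials. -/
theorem plethMult_eq_SymHW (a b m : ℕ) (lam : Fin m → ℕ) :
    plethMult a b m lam = Module.finrank ℂ (SymHW a b m lam) := by
  have h : HWSS a m b lam = (SymHW a b m lam).map (evalP a m) := by
    apply le_antisymm
    · rintro G ⟨hG, hs⟩
      rw [HWS_eq_map] at hG
      obtain ⟨f, hf, rfl⟩ := hG
      refine ⟨f, ⟨hf, fun e => ?_⟩, rfl⟩
      apply evalP_inj
      funext p
      rw [← hs e p, evalP_apply, evalP_apply, eval_rename]
      rfl
    · rintro _ ⟨f, ⟨hf, hs⟩, rfl⟩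
      refine ⟨?_, fun e p => ?_⟩
      · rw [HWS_eq_map]
        exact ⟨f, hf, rfl⟩
      · conv_rhs => rw [← hs e]
        rw [evalP_apply, evalP_apply, eval_rename]
        rfl
  rw [plethMult_eq, h]
  exact (LinearEquiv.finrank_eq
    (Submodule.equivMapOfInjective (evalP a m) (evalP_injective a m) (SymHW a b m lam))).symm

/-- **(R1a)** -/
theorem R1a (a b m : ℕ) (lam : Fin (m + 1) → ℕ) :
    plethMult a b (m + 1) lam ≤ Module.finrank ℂ (TI a b m (tl lam)) := by
  rw [plethMult_eq_SymHW]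
  refine finrank_le_of_inj' (dh m a).toLinearMap (SymHW a b (m + 1) lam) (TI a b m (tl lam)) ?_ ?_
  · rintro f ⟨⟨hf, hc⟩, hs⟩
    rw [SetLike.mem_coe, mem_ColS] at hc
    change dh m a f ∈ TI a b m (tl lam)
    refine ⟨⟨fun v hv i => ?_, fun s i hsi => ?_⟩, fun e => ?_, fun v hv j => ?_, fun i => ?_⟩
    · obtain ⟨u, hu, rfl⟩ := exists_of_coeff_dh hv
      exact hf.1 u hu i.succ
    · rw [rowOp_dh, hf.2 s.succ i.succ (Fin.succ_lt_succ_iff.2 hsi), map_zero]
    · rw [rename_dh, hs e]
    · obtain ⟨u, hu, rfl⟩ := exists_of_coeff_dh hv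
      have h := colHom_coeff hc (mem_support_iff.2 hu) j
      rw [Fin.sum_univ_succ] at h
      have h2 : ∑ i, (res u) (i, j) = ∑ i : Fin m, u (i.succ, j) := rfl
      omega
    · rw [sum_pderiv_dh, hf.2 0 i.succ (Fin.succ_pos i), map_zero]
  · rintro f ⟨⟨_, hc⟩, _⟩ h0
    exact dh_inj (mem_ColS.1 hc) h0

end Vale.Agent.P181.SZ
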